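import Vale.Agent.P067.Sys

/-!
# The hypotheses on a chamber system under which the skeleton expands
-/

set_option linter.unusedSectionVars false

namespace Vale.Agent.P067.Co

open Finset

variable {ι Ω : Type*} [DecidableEq ι] [Fintype Ω]

/-- The class of a chamber. -/
noncomputable def cl (R : Finset ι → Ω → Ω → Prop) (S : Finset ι) (x : Ω) : Finset Ω := by
  classical
  exact univ.filter (R S x)

theorem mem_cl {R : Finset ι → Ω → Ω → Prop} {S : Finset ι} {x y : Ω} :
    y ∈ cl R S x ↔ R S x y := by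
  simp [cl]

/-- A finite chamber system with classes of at most `B` chambers for the nonempty type sets. -/
structure GoodRel (R : Finset ι → Ω → Ω → Prop) (B : ℕ) : Prop where
  equiv : ∀ T, Equivalence (R T)
  anti : ∀ S T x y, S ⊆ T → R T x y → R S x y
  univ_rel : ∀ x y, R ∅ x y
  small : ∀ T, T.Nonempty → ∀ x, (cl R T x).card ≤ B

/-- The residues of rank two have spectral error at most `ν`. -/
def TwoGap [Fintype ι] (R : Finset ι → Ω → Ω → Prop) (ν : ℝ) : Prop :=
  ∀ S : Finset ι, S.card + 2 = Fintype.card ι → ∀ t u, t ∉ S → u ∉ S → t ≠ u →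
    ∀ (x : Ω) (f g : Ω → ℝ),
      (∀ y z, R (insert t S) y z → f y = f z) → (∀ y z, R (insert u S) y z → g y = g z) →
      ∑ y ∈ cl R S x, f y * g y ≤
        (∑ y ∈ cl R S x, f y) * (∑ y ∈ cl R S x, g y) / (cl R S x).card +
          ν * Real.sqrt ((∑ y ∈ cl R S x, f y ^ 2) * ∑ y ∈ cl R S x, g y ^ 2)

/-- The residues of rank at least three are generated by their maximal proper residues. -/
def Conn [Fintype ι] (R : Finset ι → Ω → Ω → Prop) : Prop :=
  ∀ S : Finset ι, S.card + 3 ≤ Fintype.card ι → ∀ φ : Ω → ℝ,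
    (∀ t, t ∉ S → ∀ y z, R (insert t S) y z → φ y = φ z) → ∀ y z, R S y z → φ y = φ z

/-- Coboundary expansion of the residues of nonempty type sets, with constant `C`. -/
def LinkExp (R : Finset ι → Ω → Ω → Prop) (d C : ℕ) : Prop :=
  ∀ S : Finset ι, S.Nonempty → ∀ m, m ≤ d + 1 →
    ∀ h : Finset ι → Ω → ZMod 2, IsCochain R m h → Above S h →
      ∃ g : Finset ι → Ω → ZMod 2, IsCochain R (m - 1) g ∧ Above S g ∧
        mass (h + delta g) ≤ C * mass (delta h)

/-- The chamber systems of cosets are connected when the larger subgroup is generated by the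
smaller ones. -/
theorem conn_cosetRel {G : Type*} [Group G] [Fintype G] [Fintype ι] (K : Finset ι → Subgroup G)
    (h : ∀ S : Finset ι, S.card + 3 ≤ Fintype.card ι →
      K S ≤ ⨆ t, ⨆ (_ : t ∉ S), K (insert t S)) :
    Conn (cosetRel K) := by
  intro S hS φ hφ y z hyz
  have key : ∀ g ∈ K S, ∀ y, φ (y * g) = φ y := by
    intro g hg
    refine Subgroup.iSup_induction (fun t => ⨆ (_ : t ∉ S), K (insert t S))
      (C := fun g => ∀ y, φ (y * g) = φ y) (h S hS hg) (fun t a ha y => ?_) (fun y => by rw [mul_one])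
      (fun a b ha hb y => by rw [← mul_assoc, hb, ha])
    by_cases ht : t ∈ S
    · simp only [ht, not_true_eq_false, iSup_false, Subgroup.mem_bot] at ha
      rw [ha, mul_one]
    · simp only [ht, not_false_eq_true, iSup_pos] at ha
      exact (hφ t ht y (y * a) (show y⁻¹ * (y * a) ∈ _ by rwa [inv_mul_cancel_left])).symm
  have := key _ hyz y
  rwa [mul_inv_cancel_left, eq_comm] at this

end Vale.Agent.P067.Co
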