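import Vale.Agent.P067.Co.Fat

/-!
# Expansion from link expansion

With the vanishing of small almost minimal cocycles, every cochain is close to a cocycle, up to a
constant times the weight of its coboundary.
-/

set_option linter.unusedSectionVars false

namespace Vale.Agent.P067.Co

open Finset

/-- The scale of the fat-face argument for `n` types, `m`-vertex faces and link constant `B`. -/
noncomputable def scale (n m : ℕ) (B : ℝ) : ℝ :=
  1 / (4 * |B| * 4 ^ n * m * ((n : ℝ) + 1) + 1) / 2

theorem scale_pos (n m : ℕ) (B : ℝ) : 0 < scale n m B := by unfold scale; positivity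

theorem scale_spec (n m : ℕ) (B : ℝ) : scale n m B ≤ 1 ∧
    4 * |B| * 4 ^ n * m * ((n : ℝ) + 1) * scale n m B < 1 := by
  unfold scale
  generalize hK : 4 * |B| * 4 ^ n * (m : ℝ) * ((n : ℝ) + 1) = K
  have hK0 : 0 ≤ K := hK ▸ by positivity
  have h : 1 / (K + 1) ≤ 1 := (div_le_one (by linarith)).2 (by linarith)
  have h' : K * (1 / (K + 1)) ≤ 1 := by
    rw [mul_one_div, div_le_one (by linarith)]; linarith
  constructor <;> nlinarith

/-- The allowed spectral error of the links. -/
noncomputable def gap (n m : ℕ) (B : ℝ) : ℝ :=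
  scale n m B * thr ((n : ℝ) + 1) (scale n m B) m

theorem gap_pos (n m : ℕ) (B : ℝ) : 0 < gap n m B :=
  mul_pos (scale_pos n m B) (thr_pos (by simp) (scale_pos n m B) m)

/-- The expansion constant. -/
noncomputable def rate (n m : ℕ) (B M : ℝ) : ℝ :=
  min (1 / (2 * (|M| + 1))) (thr ((n : ℝ) + 1) (scale n m B) m / 2 ^ n)

theorem rate_pos (n m : ℕ) (B M : ℝ) : 0 < rate n m B M := by
  have := thr_pos (N := (n : ℝ) + 1) (by simp) (scale_pos n m B) m
  unfold rate
  positivity

variable {ι Ω : Type*} [Fintype ι] [DecidableEq ι] [Fintype Ω] [DecidableEq Ω]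

namespace Sys

variable {X : Sys ι Ω}

/-- Link expansion and small spectral error give expansion modulo cocycles. -/
theorem expansion {n k : ℕ} {B M : ℝ} (hn : Fintype.card ι = n)
    (hX : X.Spec (k + 1) (gap n (k + 1) B)) (hL : X.Link (k + 1) B M)
    {f : Finset ι → Ω → ZMod 2} (hf : X.IsCochain k f) :
    ∃ b, X.IsCochain k b ∧ dd b = 0 ∧ rate n (k + 1) B M * wt (f + b) ≤ wt (dd f) := by
  classical
  subst hn
  set n := Fintype.card ι
  set δ := scale n (k + 1) B
  set θ := thr ((n : ℝ) + 1) δ (k + 1)
  set c : ℝ := 1 / (2 * (|M| + 1)) with hc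
  have hθ : 0 < θ := thr_pos (by simp) (scale_pos n (k + 1) B) _
  have hc0 : 0 < c := by positivity
  have hr := rate_pos n (k + 1) B M
  rcases lt_or_ge (wt (dd f)) (θ * Fintype.card Ω) with hsmall | hbig
  · obtain ⟨u, hu, hu'⟩ := (univ.filter fun u => X.IsCochain k u).exists_min_image
      (fun u => wt (dd (f + u)) + c * wt u) ⟨0, by simpa using X.isCochain_zero k⟩
    simp only [mem_filter, mem_univ, true_and] at hu hu'
    have h0 := hu' 0 (X.isCochain_zero k)
    rw [add_zero, show wt (0 : Finset ι → Ω → ZMod 2) = 0 by simp [wt, supp], mul_zero,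
      add_zero] at h0
    have hz1 : wt (dd (f + u)) ≤ wt (dd f) := by nlinarith [wt_nonneg u]
    have hu1 : c * wt u ≤ wt (dd f) := by linarith [wt_nonneg (dd (f + u))]
    have hfu := X.isCochain_add hf hu
    obtain ⟨hδ1, hδB⟩ := scale_spec n (k + 1) B
    have hz : dd (f + u) = 0 := by
      refine small_vanishes (B := |B|) (M := M) (c := c) (scale_pos n (k + 1) B) hδ1 (abs_nonneg B)
        hc0.le ?_ hδB hX ?_ (X.isCochain_dd hfu) (dd_dd _) (fun v hv => ?_)
        (lt_of_le_of_lt hz1 hsmall)
      · rw [hc, ← mul_assoc, mul_one_div, div_mul_eq_mul_div, div_le_one (by positivity)]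
        linarith [le_abs_self M]
      · intro S hS h hh hs
        obtain ⟨v, h1, h2, h3⟩ := hL S hS h hh hs
        exact ⟨v, h1, h2, h3.trans (mul_le_mul_of_nonneg_right (le_abs_self B) (wt_nonneg _))⟩
      · rw [Nat.add_sub_cancel] at hv
        have h := hu' (u + v) (X.isCochain_add hu hv)
        rw [← add_assoc, dd_add (f + u) v] at h
        have h' := mul_le_mul_of_nonneg_left (wt_add_le u v) hc0.le
        linarith
    refine ⟨f + u, hfu, hz, ?_⟩
    have e : f + (f + u) = u := by
      funext T x
      simp [← add_assoc, CharTwo.add_self_eq_zero]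
    rw [e]
    exact le_trans (mul_le_mul_of_nonneg_right (min_le_left _ _) (wt_nonneg u)) hu1
  · refine ⟨0, X.isCochain_zero k, by funext T x; simp [dd], ?_⟩
    rw [add_zero]
    refine le_trans (mul_le_mul (min_le_right _ _) (wt_le f) (wt_nonneg f) (by positivity)) ?_
    refine le_trans (le_of_eq ?_) hbig
    field_simp
    ring

end Sys

end Vale.Agent.P067.Co
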