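import Vale.Agent.P067.Co.Chain

/-!
# Small almost minimal cocycles vanish

The fat-face argument for a chamber system: if the link graphs are good spectral expanders and the
links are coboundary expanders, a small cocycle which no coboundary makes much smaller is zero.
-/

set_option linter.unusedSectionVars false

namespace Vale.Agent.P067.Co

open Finset

variable {ι Ω : Type*} [Fintype ι] [DecidableEq ι] [Fintype Ω] [DecidableEq Ω]

namespace Sys

variable (X : Sys ι Ω)

/-- The link graph of every face with fewer than `s` vertices has few pairs inside a set, up to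
`lam` times the set. -/
def Spec (s : ℕ) (lam : ℝ) : Prop :=
  ∀ (S : Finset ι) (x : Ω) (B : ι → Finset Ω), S.card < s → (∀ t ∈ S, B t = ∅) →
    (∀ t, ∀ y ∈ B t, y ∈ X.cls S x ∧ X.cls (insert t S) y ⊆ B t) →
    ∑ t, ∑ u, (if t ≠ u then ((B t ∩ B u).card : ℝ) else 0) ≤
      (∑ t, ((B t).card : ℝ)) ^ 2 / (X.cls S x).card + lam * ∑ t, ((B t).card : ℝ)

/-- The links of the nonempty faces are coboundary expanders in the degree of `m`-vertex faces,
with constant `B`, and primitives of bounded relative weight. -/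
def Link (m : ℕ) (B M : ℝ) : Prop :=
  ∀ S : Finset ι, S.Nonempty → ∀ h : Finset ι → Ω → ZMod 2, X.IsCochain m h →
    (∀ T x, h T x ≠ 0 → S ⊆ T) →
    ∃ v, X.IsCochain (m - 1) v ∧ wt v ≤ M * wt h ∧ wt (h + dd v) ≤ B * wt (dd h)

end Sys

/-- The thresholds: `thr j` bounds the size of the fat faces of codegree `j` below the cocycle. -/
noncomputable def thr (N δ : ℝ) : ℕ → ℝ
  | 0 => 1
  | j + 1 => δ * thr N δ j ^ 2 / N

theorem thr_pos {N δ : ℝ} (hN : 1 ≤ N) (hδ : 0 < δ) : ∀ j, 0 < thr N δ j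
  | 0 => one_pos
  | j + 1 => by
    have := thr_pos hN hδ j
    have : 0 < N := by linarith
    unfold thr; positivity

theorem thr_le_one {N δ : ℝ} (hN : 1 ≤ N) (hδ : 0 < δ) (hδ1 : δ ≤ 1) : ∀ j, thr N δ j ≤ 1
  | 0 => le_rfl
  | j + 1 => by
    have h0 := thr_pos hN hδ j
    have h1 := thr_le_one hN hδ hδ1 j
    unfold thr
    rw [div_le_one (by linarith)]
    nlinarith

theorem thr_anti {N δ : ℝ} (hN : 1 ≤ N) (hδ : 0 < δ) (hδ1 : δ ≤ 1) : Antitone (thr N δ) := by
  refine antitone_nat_of_succ_le fun j => ?_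
  have h0 := thr_pos hN hδ j
  have h1 := thr_le_one hN hδ hδ1 j
  show δ * thr N δ j ^ 2 / N ≤ thr N δ j
  rw [div_le_iff₀ (by linarith)]
  have h2 : δ * thr N δ j ^ 2 ≤ 1 * thr N δ j ^ 2 :=
    mul_le_mul_of_nonneg_right hδ1 (sq_nonneg _)
  nlinarith

/-- The number of ways up from the face of type `S` of the chamber `y` into `A`. -/
noncomputable def up (A : Finset (Finset ι × Ω)) (S : Finset ι) (y : Ω) : ℝ :=
  ∑ t, if t ∉ S ∧ (insert t S, y) ∈ A then 1 else 0

theorem sum_up_le (A : Finset (Finset ι × Ω)) :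
    ∑ S : Finset ι, ∑ y, up A S y ≤ ((Fintype.card ι : ℝ) + 1) * A.card := by
  classical
  have h1 : ∑ S : Finset ι, ∑ y, up A S y =
      ((univ.filter fun p : Finset ι × Ω × ι =>
        p.2.2 ∉ p.1 ∧ (insert p.2.2 p.1, p.2.1) ∈ A).card : ℝ) := by
    rw [← sum_boole, Fintype.sum_prod_type]
    refine sum_congr rfl fun S _ => ?_
    rw [Fintype.sum_prod_type]
    exact sum_congr rfl fun y _ => by unfold up; rfl
  rw [h1]
  have h2 : (univ.filter fun p : Finset ι × Ω × ι =>
      p.2.2 ∉ p.1 ∧ (insert p.2.2 p.1, p.2.1) ∈ A).card ≤ (A ×ˢ (univ : Finset ι)).card := by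
    refine card_le_card_of_injOn (fun p => ((insert p.2.2 p.1, p.2.1), p.2.2)) ?_ ?_
    · intro p hp
      simp only [coe_filter, Set.mem_ofPred_eq] at hp
      simp [hp.2.2]
    · rintro ⟨S, y, t⟩ hp ⟨S', y', t'⟩ hp' h
      simp only [coe_filter, Set.mem_ofPred_eq] at hp hp'
      simp only [Prod.mk.injEq] at h
      obtain ⟨⟨h1, rfl⟩, rfl⟩ := h
      have := congrArg (fun U => Finset.erase U t) h1
      simp only [erase_insert hp.2.1, erase_insert hp'.2.1] at this
      rw [this]
  rw [card_product, card_univ] at h2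
  have h3 : ((univ.filter fun p : Finset ι × Ω × ι =>
      p.2.2 ∉ p.1 ∧ (insert p.2.2 p.1, p.2.1) ∈ A).card : ℝ) ≤ A.card * Fintype.card ι := by
    exact_mod_cast h2
  have : (0 : ℝ) ≤ A.card := Nat.cast_nonneg _
  nlinarith

namespace Sys

variable (X : Sys ι Ω)

/-- The fat faces of codegree `j` below the cochain `z`, as pairs of a type set and a chamber. -/
noncomputable def level (z : Finset ι → Ω → ZMod 2) (η : ℕ → ℝ) : ℕ → Finset (Finset ι × Ω)
  | 0 => supp z
  | j + 1 => by
    classical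
    exact univ.filter fun p =>
      η j * (X.cls p.1 p.2).card ≤ ∑ y ∈ X.cls p.1 p.2, up (level z η j) p.1 y

variable {X} {m : ℕ} {z : Finset ι → Ω → ZMod 2} {η : ℕ → ℝ}

theorem mem_level_succ {j : ℕ} {S : Finset ι} {x : Ω} : (S, x) ∈ X.level z η (j + 1) ↔
    η j * (X.cls S x).card ≤ ∑ y ∈ X.cls S x, up (X.level z η j) S y := by
  simp [level]

theorem level_card (hz : X.IsCochain m z) (hη : ∀ j, 0 < η j) :
    ∀ j S x, (S, x) ∈ X.level z η j → S.card + j = m
  | 0, S, x, h => by
    by_contra hc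
    simp only [level, supp, mem_filter, mem_univ, true_and] at h
    exact h (hz.1 S x (by omega))
  | j + 1, S, x, h => by
    rw [mem_level_succ] at h
    have hpos : 0 < ∑ y ∈ X.cls S x, up (X.level z η j) S y :=
      lt_of_lt_of_le (mul_pos (hη j) (X.card_cls_pos S x)) h
    obtain ⟨y, _, hy⟩ := exists_ne_zero_of_sum_ne_zero hpos.ne'
    obtain ⟨t, _, ht⟩ := exists_ne_zero_of_sum_ne_zero hy
    obtain ⟨h1, h2⟩ := ite_ne_right_iff.1 ht |>.1
    have := level_card hz hη j _ _ h2
    rw [card_insert_of_notMem h1] at this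
    omega

theorem level_invariant (hz : X.IsCochain m z) {j : ℕ} {S : Finset ι} {x y : Ω}
    (hy : y ∈ X.cls S x) (h : (S, x) ∈ X.level z η j) : (S, y) ∈ X.level z η j := by
  cases j with
  | zero =>
    simp only [level, supp, mem_filter, mem_univ, true_and] at h ⊢
    rwa [hz.2 S x y hy]
  | succ j =>
    rw [mem_level_succ] at h ⊢
    rwa [X.eq_of_mem S x y hy]

theorem level_succ_le (j : ℕ) :
    η j * (X.level z η (j + 1)).card ≤ ((Fintype.card ι : ℝ) + 1) * (X.level z η j).card := by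
  classical
  refine le_trans ?_ (sum_up_le _)
  have h1 : ((X.level z η (j + 1)).card : ℝ) =
      ∑ S : Finset ι, ∑ x, if (S, x) ∈ X.level z η (j + 1) then (1 : ℝ) else 0 := by
    rw [← Fintype.sum_prod_type' (f := fun S x =>
      if (S, x) ∈ X.level z η (j + 1) then (1 : ℝ) else 0), sum_boole]
    congr 2
    ext p; simp
  rw [h1, mul_sum]
  refine sum_le_sum fun S _ => ?_
  rw [← X.sum_avg S (up (X.level z η j) S), mul_sum]
  refine sum_le_sum fun x _ => ?_
  split_ifs with h
  · rw [mem_level_succ] at h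
    rwa [mul_one, le_div_iff₀ (X.card_cls_pos S x)]
  · rw [mul_zero]
    exact div_nonneg (sum_nonneg fun y _ => sum_nonneg fun t _ => by split_ifs <;> norm_num)
      (Nat.cast_nonneg _)

variable (X) in
/-- The faces with one vertex more than the cocycle containing two fat faces with a thin meet,
counted with their witnesses. -/
noncomputable def pairs (z : Finset ι → Ω → ZMod 2) (η : ℕ → ℝ) (j : ℕ) :
    Finset ((Finset ι × ι × ι) × Ω) := by
  classical
  exact univ.filter fun q => q.1.2.1 ≠ q.1.2.2 ∧ q.1.2.1 ∉ q.1.1 ∧ q.1.2.2 ∉ q.1.1 ∧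
    (insert q.1.2.1 q.1.1, q.2) ∈ X.level z η j ∧ (insert q.1.2.2 q.1.1, q.2) ∈ X.level z η j ∧
    (q.1.1, q.2) ∉ X.level z η (j + 1)

theorem card_pairs_le (hz : X.IsCochain m z) {lam : ℝ} (hlam : 0 ≤ lam) (hX : X.Spec m lam)
    (hη : ∀ j, 0 < η j) (j : ℕ) :
    ((X.pairs z η j).card : ℝ) ≤
      (η j + lam) * (((Fintype.card ι : ℝ) + 1) * (X.level z η j).card) := by
  classical
  have h1 : ((X.pairs z η j).card : ℝ) = ∑ S : Finset ι, ∑ y, ∑ t, ∑ u,
      if t ≠ u ∧ t ∉ S ∧ u ∉ S ∧ (insert t S, y) ∈ X.level z η j ∧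
        (insert u S, y) ∈ X.level z η j ∧ (S, y) ∉ X.level z η (j + 1) then (1 : ℝ) else 0 := by
    unfold pairs
    rw [← sum_boole, Fintype.sum_prod_type, Fintype.sum_prod_type]
    refine sum_congr rfl fun S _ => ?_
    rw [Fintype.sum_prod_type, sum_comm (γ := Ω)]
    exact sum_congr rfl fun t _ => sum_comm
  have hη' : 0 ≤ η j + lam := by linarith [hη j]
  refine le_trans ?_ (mul_le_mul_of_nonneg_left (sum_up_le _) hη')
  rw [h1, mul_sum]
  refine sum_le_sum fun S _ => ?_
  rw [← X.sum_avg S, ← X.sum_avg S (up (X.level z η j) S), mul_sum]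
  refine sum_le_sum fun x _ => ?_
  rw [← mul_div_assoc]
  refine div_le_div_of_nonneg_right ?_ (Nat.cast_nonneg _)
  by_cases hx : (S, x) ∈ X.level z η (j + 1)
  · refine le_trans (le_of_eq (sum_eq_zero fun y hy => sum_eq_zero fun t _ =>
      sum_eq_zero fun u _ => if_neg fun h => h.2.2.2.2.2 (level_invariant hz hy hx))) ?_
    exact mul_nonneg hη' (sum_nonneg fun y _ => sum_nonneg fun t _ => by split_ifs <;> norm_num)
  set B : ι → Finset Ω := fun t =>
    (X.cls S x).filter fun y => t ∉ S ∧ (insert t S, y) ∈ X.level z η j with hB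
  have hx' : ∀ y ∈ X.cls S x, (S, y) ∉ X.level z η (j + 1) := fun y hy h =>
    hx (level_invariant hz (X.cls_comm.1 hy) h)
  have hP : ∑ y ∈ X.cls S x, up (X.level z η j) S y = ∑ t, ((B t).card : ℝ) := by
    unfold up
    rw [sum_comm]
    exact sum_congr rfl fun t _ => by rw [hB, sum_boole]
  have hL : (∑ y ∈ X.cls S x, ∑ t, ∑ u,
      if t ≠ u ∧ t ∉ S ∧ u ∉ S ∧ (insert t S, y) ∈ X.level z η j ∧
        (insert u S, y) ∈ X.level z η j ∧ (S, y) ∉ X.level z η (j + 1) then (1 : ℝ) else 0) =
      ∑ t, ∑ u, (if t ≠ u then ((B t ∩ B u).card : ℝ) else 0) := by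
    rw [sum_comm]
    refine sum_congr rfl fun t _ => ?_
    rw [sum_comm]
    refine sum_congr rfl fun u _ => ?_
    rw [sum_boole]
    split_ifs with htu
    · congr 2
      ext y
      simp only [hB, mem_filter, mem_inter]
      exact ⟨fun ⟨h1, _, h3, h4, h5, h6, _⟩ => ⟨⟨h1, h3, h5⟩, h1, h4, h6⟩,
        fun ⟨⟨h1, h3, h5⟩, _, h4, h6⟩ => ⟨h1, htu, h3, h4, h5, h6, hx' y h1⟩⟩
    · rw [Nat.cast_eq_zero, card_eq_zero, filter_eq_empty_iff]
      exact fun y _ h => htu h.1
  rw [hP, hL]
  rcases eq_or_lt_of_le (sum_nonneg fun t _ => (Nat.cast_nonneg (B t).card : (0 : ℝ) ≤ _) :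
      (0 : ℝ) ≤ ∑ t, ((B t).card : ℝ)) with h0 | h0
  · rw [← h0, mul_zero]
    refine le_of_eq (sum_eq_zero fun t _ => sum_eq_zero fun u _ => ?_)
    have := (sum_eq_zero_iff_of_nonneg fun t _ => Nat.cast_nonneg _).1 h0.symm t (mem_univ t)
    rw [Nat.cast_eq_zero, card_eq_zero] at this
    simp [this]
  obtain ⟨t, _, ht⟩ := exists_ne_zero_of_sum_ne_zero h0.ne'
  obtain ⟨y, hy⟩ := card_ne_zero.1 (Nat.cast_ne_zero.1 ht)
  simp only [hB, mem_filter] at hy
  have hS : S.card < m := by
    have := level_card hz hη j _ _ hy.2.2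
    rw [card_insert_of_notMem hy.2.1] at this
    omega
  refine (hX S x B hS (fun t ht => ?_) fun t y hy => ?_).trans ?_
  · simp [hB, ht]
  · simp only [hB, mem_filter] at hy ⊢
    refine ⟨hy.1, fun y' hy' => mem_filter.2 ⟨?_, hy.2.1, level_invariant hz hy' hy.2.2⟩⟩
    rw [← X.eq_of_mem S x y hy.1]
    exact X.mem_of_subset (subset_insert _ _) hy'
  · have hlt : ∑ t, ((B t).card : ℝ) < η j * (X.cls S x).card := by
      rw [← hP]; rw [mem_level_succ, not_le] at hx; exact hx
    rw [add_mul]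
    refine add_le_add ?_ le_rfl
    rw [div_le_iff₀ (X.card_cls_pos S x)]
    nlinarith

variable (X) in
/-- The face of type `S` of the chamber `x` is fat. -/
def Fat (m : ℕ) (z : Finset ι → Ω → ZMod 2) (η : ℕ → ℝ) (x : Ω) (S : Finset ι) : Prop :=
  (S, x) ∈ X.level z η (m - S.card)

theorem fat_congr (hz : X.IsCochain m z) {S T : Finset ι} {x y : Ω} (hST : S ⊆ T)
    (hy : y ∈ X.cls T x) (h : X.Fat m z η x S) : X.Fat m z η y S :=
  level_invariant hz (X.mem_of_subset hST hy) h

variable (X) in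
/-- The faces with `m + 1` vertices which are not good. -/
noncomputable def bad (m : ℕ) (z : Finset ι → Ω → ZMod 2) (η : ℕ → ℝ) :
    Finset (Finset ι × Ω) := by
  classical
  exact univ.filter fun q => ¬ Good (X.Fat m z η q.2) q.1

theorem card_bad_le (hz : X.IsCochain m z) (hη : ∀ j, 0 < η j) :
    ((X.bad m z η).card : ℝ) ≤
      2 ^ Fintype.card ι * ∑ j ∈ range m, ((X.pairs z η j).card : ℝ) := by
  classical
  have h : X.bad m z η ⊆ ((univ : Finset (Finset ι)) ×ˢ (range m).biUnion (X.pairs z η)).image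
      fun q => (q.1, q.2.2) := by
    rintro ⟨T', y⟩ hq
    simp only [bad, mem_filter, mem_univ, true_and, Good, not_forall] at hq
    obtain ⟨S, t, u, htu, ht, hu, -, -, hPt, hPu, hPS⟩ := hq
    have hc := level_card hz hη _ _ _ hPt
    rw [Fat, card_insert_of_notMem ht] at hPt
    rw [Fat, card_insert_of_notMem hu] at hPu
    rw [card_insert_of_notMem ht] at hc
    refine mem_image.2 ⟨(T', (S, t, u), y), mem_product.2 ⟨mem_univ _, mem_biUnion.2
      ⟨m - (S.card + 1), mem_range.2 (by omega), ?_⟩⟩, rfl⟩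
    simp only [pairs, mem_filter, mem_univ, true_and]
    refine ⟨htu, ht, hu, hPt, hPu, ?_⟩
    rwa [show m - (S.card + 1) + 1 = m - S.card by omega]
  have h2 := (card_le_card h).trans (card_image_le.trans
    (le_of_eq (card_product _ _) |>.trans (Nat.mul_le_mul_left _ card_biUnion_le)))
  rw [card_univ, Fintype.card_finset] at h2
  exact_mod_cast h2

theorem eq_one {b : ZMod 2} (h : b ≠ 0) : b = 1 := by revert h; revert b; decide

variable (X) in
/-- The part of `z` made of the faces with a chain of fat faces down to a minimal one of type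
`S`. -/
noncomputable def part (m : ℕ) (z : Finset ι → Ω → ZMod 2) (η : ℕ → ℝ) (S : Finset ι) :
    Finset ι → Ω → ZMod 2 := by
  classical
  exact fun T x => if z T x ≠ 0 ∧ (∀ a ∈ S, ¬ X.Fat m z η x (S.erase a)) ∧
    Chain (X.Fat m z η x) S T then 1 else 0

theorem part_ne_zero {S T : Finset ι} {x : Ω} : X.part m z η S T x ≠ 0 ↔
    z T x ≠ 0 ∧ (∀ a ∈ S, ¬ X.Fat m z η x (S.erase a)) ∧ Chain (X.Fat m z η x) S T := by
  unfold part
  split_ifs with h
  · exact iff_of_true one_ne_zero h
  · exact ⟨fun h' => absurd rfl h', fun h' => absurd h' h⟩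

theorem part_eq_or (S T : Finset ι) (x : Ω) :
    X.part m z η S T x = 0 ∨ X.part m z η S T x = z T x := by
  by_cases h : X.part m z η S T x = 0
  · exact .inl h
  · exact .inr ((eq_one h).trans (eq_one (part_ne_zero.1 h).1).symm)

theorem part_isCochain (hz : X.IsCochain m z) (S : Finset ι) :
    X.IsCochain m (X.part m z η S) := by
  have key : ∀ T x y, y ∈ X.cls T x → X.part m z η S T x ≠ 0 → X.part m z η S T y ≠ 0 := by
    intro T x y hy h
    rw [part_ne_zero] at h ⊢
    obtain ⟨h1, h2, h3⟩ := h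
    refine ⟨by rwa [hz.2 T x y hy], fun a ha h => h2 a ha ?_,
      h3.congr fun U hU => fat_congr hz hU hy⟩
    exact fat_congr hz ((erase_subset a S).trans h3.subset) (X.cls_comm.1 hy) h
  refine ⟨fun T x hT => by_contra fun h => (part_ne_zero.1 h).1 (hz.1 T x hT),
    fun T x y hy => ?_⟩
  by_cases h : X.part m z η S T x = 0
  · rw [h]
    exact by_contra fun h' => key T y x (X.cls_comm.1 hy) h' h
  · rw [eq_one h, eq_one (key T x y hy h)]

theorem fat_of_ne_zero (hz : X.IsCochain m z) {T : Finset ι} {x : Ω} (h : z T x ≠ 0) :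
    X.Fat m z η x T := by
  have hT : T.card = m := by_contra fun hT => h (hz.1 T x hT)
  rw [Fat, hT, Nat.sub_self]
  simpa [level, supp] using h

theorem wt_le_sum_part (hz : X.IsCochain m z) : wt z ≤ ∑ S, wt (X.part m z η S) := by
  have : supp z ⊆ univ.biUnion fun S => supp (X.part m z η S) := by
    rintro ⟨T, x⟩ hp
    simp only [supp, mem_filter, mem_univ, true_and] at hp
    obtain ⟨S, hS, hc⟩ := exists_chain T (fat_of_ne_zero (η := η) hz hp)
    exact mem_biUnion.2 ⟨S, mem_univ _,
      mem_filter.2 ⟨mem_univ _, part_ne_zero.2 ⟨hp, hS, hc⟩⟩⟩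
  unfold wt
  exact_mod_cast (card_le_card this).trans card_biUnion_le

theorem supp_dd_part (hz : X.IsCochain m z) (hcoc : dd z = 0) (S : Finset ι) :
    supp (dd (X.part m z η S)) ⊆ X.bad m z η := by
  rintro ⟨T', y⟩ hp
  simp only [supp, mem_filter, mem_univ, true_and] at hp
  simp only [bad, mem_filter, mem_univ, true_and]
  intro hG
  refine hp ?_
  by_cases hex : ∃ b ∈ T', X.part m z η S (T'.erase b) y ≠ 0
  swap
  · push Not at hex
    exact sum_eq_zero hex
  obtain ⟨b, hb, hgb⟩ := hex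
  obtain ⟨-, hS, hchain⟩ := part_ne_zero.1 hgb
  refine Eq.trans ?_ (congrFun (congrFun hcoc T') y)
  refine sum_congr rfl fun a ha => ?_
  by_cases hza : z (T'.erase a) y = 0
  · rw [hza]
    exact by_contra fun h => (part_ne_zero.1 h).1 hza
  · rw [eq_one hza]
    exact eq_one (part_ne_zero.2 ⟨hza, hS, chain_all hG hS ha hb (fat_of_ne_zero hz hza) hchain⟩)

theorem key {g a b : ZMod 2} (h : g = 0 ∨ g = a) :
    (if a + b ≠ 0 then (1 : ℝ) else 0) + (if g ≠ 0 then 1 else 0) ≤
      (if g + b ≠ 0 then 1 else 0) + (if a ≠ 0 then 1 else 0) := by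
  rcases h with rfl | rfl
  · rw [zero_add]
    rcases eq_or_ne a 0 with rfl | ha
    · simp
    · rcases eq_or_ne b 0 with rfl | hb
      · simp [ha]
      · rw [eq_one ha, eq_one hb, show (1 : ZMod 2) + 1 = 0 from rfl]; norm_num
  · exact le_rfl

theorem wt_add_part (S : Finset ι) (w : Finset ι → Ω → ZMod 2) :
    wt (z + w) + wt (X.part m z η S) ≤ wt (X.part m z η S + w) + wt z := by
  simp only [wt, supp, ← sum_boole, ← sum_add_distrib]
  refine sum_le_sum fun p _ => ?_
  exact key (part_eq_or (X := X) (m := m) (z := z) (η := η) S p.1 p.2)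

/-- A small cocycle which no coboundary makes much smaller is zero. -/
theorem small_vanishes {B M c : ℝ} {δ : ℝ} (hδ : 0 < δ) (hδ1 : δ ≤ 1)
    (hB : 0 ≤ B) (hc : 0 ≤ c) (hcM : 2 * (c * M) ≤ 1)
    (hδB : 4 * B * 4 ^ Fintype.card ι * m * ((Fintype.card ι : ℝ) + 1) * δ < 1)
    (hX : X.Spec m (δ * thr ((Fintype.card ι : ℝ) + 1) δ m)) (hL : X.Link m B M)
    (hz : X.IsCochain m z) (hcoc : dd z = 0)
    (hmin : ∀ v, X.IsCochain (m - 1) v → wt z ≤ wt (z + dd v) + c * wt v)
    (hsmall : wt z < thr ((Fintype.card ι : ℝ) + 1) δ m * Fintype.card Ω) : z = 0 := by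
  classical
  set N : ℝ := (Fintype.card ι : ℝ) + 1 with hNdef
  have hN : 1 ≤ N := by simp [hNdef]
  set η : ℕ → ℝ := fun j => δ * thr N δ j with hηdef
  have hη : ∀ j, 0 < η j := fun j => mul_pos hδ (thr_pos hN hδ j)
  set lam := δ * thr N δ m with hlamdef
  have hlev : ∀ j, thr N δ j * (X.level z η j).card ≤ wt z := by
    intro j
    induction j with
    | zero => simp [thr, level, wt]
    | succ j ih =>
      have h1 := level_succ_le (X := X) (z := z) (η := η) j
      have h0 := thr_pos hN hδ j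
      calc thr N δ (j + 1) * (X.level z η (j + 1)).card
          = thr N δ j * (η j * (X.level z η (j + 1)).card) / N := by
            simp only [thr, hηdef]; ring
        _ ≤ thr N δ j * (N * (X.level z η j).card) / N := by gcongr
        _ = thr N δ j * (X.level z η j).card := by field_simp
        _ ≤ wt z := ih
  -- the bad faces are few
  have hbad : ((X.bad m z η).card : ℝ) ≤ 2 ^ Fintype.card ι * (m * (2 * δ * N * wt z)) := by
    refine (card_bad_le hz hη).trans (mul_le_mul_of_nonneg_left ?_ (by positivity))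
    refine (sum_le_sum fun j hj => ?_).trans (le_of_eq (by rw [sum_const, card_range, nsmul_eq_mul]))
    refine (card_pairs_le hz (mul_pos hδ (thr_pos hN hδ m)).le hX hη j).trans ?_
    have h1 : η j + lam ≤ 2 * δ * thr N δ j := by
      have := mul_le_mul_of_nonneg_left (thr_anti hN hδ hδ1 (mem_range.1 hj).le) hδ.le
      simp only [hηdef, hlamdef]; linarith
    calc (η j + lam) * (N * (X.level z η j).card)
        ≤ 2 * δ * thr N δ j * (N * (X.level z η j).card) :=
          mul_le_mul_of_nonneg_right h1 (by positivity)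
      _ = 2 * δ * N * (thr N δ j * (X.level z η j).card) := by ring
      _ ≤ 2 * δ * N * wt z := by gcongr; exact hlev j
  -- the empty face is thin
  have hempty : ∀ x, ¬ X.Fat m z η x ∅ := by
    intro x h
    rw [Fat, card_empty, Nat.sub_zero] at h
    have hle : univ.image (fun y : Ω => ((∅ : Finset ι), y)) ⊆ X.level z η m := by
      intro p hp
      obtain ⟨y, _, rfl⟩ := mem_image.1 hp
      exact level_invariant hz (by rw [X.empty]; exact mem_univ y) h
    have := card_le_card hle
    rw [card_image_of_injective _ (fun a b hab => (Prod.mk.injEq _ _ _ _ ▸ hab).2), card_univ] at this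
    have h1 : thr N δ m * Fintype.card Ω ≤ thr N δ m * (X.level z η m).card :=
      mul_le_mul_of_nonneg_left (by exact_mod_cast this) (thr_pos hN hδ m).le
    linarith [hlev m]
  have hper : ∀ S, wt (X.part m z η S) ≤ 2 * B * (X.bad m z η).card := by
    intro S
    rcases S.eq_empty_or_nonempty with rfl | hne
    · have h0 : wt (X.part m z η ∅) = 0 := by
        rw [wt, Nat.cast_eq_zero, card_eq_zero]
        exact filter_eq_empty_iff.2 fun p _ h => hempty p.2 (part_ne_zero.1 h).2.2.bot
      rw [h0]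
      exact mul_nonneg (by linarith) (Nat.cast_nonneg _)
    · obtain ⟨v, hv, hvM, hvB⟩ := hL S hne _ (part_isCochain hz S) fun T x h =>
        (part_ne_zero.1 h).2.2.subset
      have hsub := wt_add_part (X := X) (m := m) (z := z) (η := η) S (dd v)
      have hle := hmin v hv
      have hdd : wt (dd (X.part m z η S)) ≤ (X.bad m z η).card :=
        Nat.cast_le.2 (card_le_card (supp_dd_part hz hcoc S))
      have h1 : c * wt v ≤ c * (M * wt (X.part m z η S)) := mul_le_mul_of_nonneg_left hvM hc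
      have h2 : 2 * (c * M) * wt (X.part m z η S) ≤ 1 * wt (X.part m z η S) :=
        mul_le_mul_of_nonneg_right hcM (wt_nonneg _)
      have h3 : B * wt (dd (X.part m z η S)) ≤ B * (X.bad m z η).card :=
        mul_le_mul_of_nonneg_left hdd hB
      linarith
  have htot : wt z ≤ 4 * B * 4 ^ Fintype.card ι * m * N * δ * wt z := by
    refine (wt_le_sum_part (η := η) hz).trans ((sum_le_sum fun S _ => hper S).trans ?_)
    rw [sum_const, card_univ, Fintype.card_finset, nsmul_eq_mul, Nat.cast_pow, Nat.cast_ofNat]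
    refine (mul_le_mul_of_nonneg_left (mul_le_mul_of_nonneg_left hbad (by positivity))
      (by positivity)).trans (le_of_eq ?_)
    rw [show (4 : ℝ) ^ Fintype.card ι = 2 ^ Fintype.card ι * 2 ^ Fintype.card ι by
      rw [← mul_pow]; norm_num]
    ring
  have hw0 : wt z = 0 := by nlinarith [wt_nonneg z]
  funext T x
  by_contra hne
  simp only [wt, Nat.cast_eq_zero, card_eq_zero] at hw0
  exact (eq_empty_iff_forall_notMem.1 hw0 (T, x)) (mem_filter.2 ⟨mem_univ _, hne⟩)

end Sys

end Vale.Agent.P067.Co
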