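import Vale.Agent.P067.Co.Trickle
import Vale.Agent.P067.Co.Fat

/-!
# The spectral hypothesis of the fat-face argument from the residues of rank two
-/

set_option linter.unusedSectionVars false

namespace Vale.Agent.P067.Co

open Finset

variable {ι Ω : Type*} [Fintype ι] [DecidableEq ι] [Fintype Ω] [DecidableEq Ω]

/-- The relation of a chamber system. -/
def relOf (X : Sys ι Ω) : Finset ι → Ω → Ω → Prop := fun T x y => y ∈ X.cls T x

theorem goodRel_relOf (X : Sys ι Ω) : GoodRel (relOf X) (Fintype.card Ω) where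
  equiv T := ⟨fun x => X.self T x, fun {x y} h => X.cls_comm.1 h,
    fun {x y z} h h' => by
      show z ∈ X.cls T x
      rw [← X.eq_of_mem T x y h]
      exact h'⟩
  anti S T x y h h' := X.mem_of_subset h h'
  univ_rel x y := by
    show y ∈ X.cls ∅ x
    rw [X.empty]
    exact mem_univ y
  small T _ x := card_le_univ _

/-- Small error in the residues of rank two and connectedness give small error in the link
graph of every face with at least two missing types. -/
theorem spec_of_twoGap (X : Sys ι Ω) {R : Finset ι → Ω → Ω → Prop}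
    (hX : ∀ T x y, y ∈ X.cls T x ↔ R T x y) (hconn : Conn R) {ν : ℝ} (hν : 0 ≤ ν)
    (hν3 : 3 ^ Fintype.card ι * ν ≤ 1) (h2 : TwoGap R ν) {m : ℕ} (hm : m + 1 ≤ Fintype.card ι) :
    X.Spec m (3 ^ Fintype.card ι * ν) := by
  classical
  obtain rfl : R = relOf X :=
    funext fun T => funext fun x => funext fun y => propext (hX T x y).symm
  have hR := goodRel_relOf X
  intro S x B hS hB0 hBsat
  obtain ⟨j, hj⟩ : ∃ j, S.card + 2 + j = Fintype.card ι :=
    ⟨Fintype.card ι - (S.card + 2), by omega⟩
  have hg := gap_all hR hconn hν hν3 h2 j S hj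
  set f : ι → Ω → ℝ := fun t y => if y ∈ B t then 1 else 0 with hf
  have hA : Adm (relOf X) S f := by
    refine ⟨fun t ht y => by simp [hf, hB0 t ht], fun t y z h => ?_⟩
    have : y ∈ B t ↔ z ∈ B t :=
      ⟨fun hy => (hBsat t y hy).2 h, fun hz => (hBsat t z hz).2 (X.cls_comm.1 h)⟩
    simp only [hf, this]
  have hC : cl (relOf X) S x = X.cls S x := by ext y; simp [mem_cl, relOf]
  have h := hg x f hA
  rw [hC] at h
  have e1 : ∀ t, ∑ y ∈ X.cls S x, f t y = ((B t).card : ℝ) := fun t => by
    simp only [hf, sum_boole]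
    congr 2
    ext y
    simp only [mem_filter]
    exact ⟨fun h => h.2, fun h => ⟨(hBsat t y h).1, h⟩⟩
  have etot : tot (X.cls S x) f = ∑ t, ((B t).card : ℝ) := by
    rw [tot, sum_comm]; exact sum_congr rfl fun t _ => e1 t
  have esq : sq2 (X.cls S x) f = ∑ t, ((B t).card : ℝ) := by
    rw [sq2, sum_comm]
    refine sum_congr rfl fun t _ => (sum_congr rfl fun y _ => ?_).trans (e1 t)
    simp only [hf]; split_ifs <;> norm_num
  have eq : qf (X.cls S x) f =
      ∑ t, ∑ u, (if t ≠ u then ((B t ∩ B u).card : ℝ) else 0) := by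
    rw [qf, sum_congr rfl fun y _ => show (∑ t, f t y) ^ 2 - ∑ t, f t y ^ 2 =
        ∑ t, ∑ u, if t ≠ u then f t y * f u y else 0 by
      rw [sq, sum_mul_sum, ← sum_sub_distrib]
      refine sum_congr rfl fun t _ => ?_
      rw [eq_comm, sum_congr rfl fun u _ => show (if t ≠ u then f t y * f u y else 0) =
        f t y * f u y - if t = u then f t y * f u y else 0 by split_ifs <;> simp_all]
      rw [sum_sub_distrib, sum_ite_eq, if_pos (mem_univ t), sq], sum_comm]
    refine sum_congr rfl fun t _ => ?_
    rw [sum_comm]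
    refine sum_congr rfl fun u _ => ?_
    by_cases htu : t ≠ u
    · simp only [if_pos htu]
      rw [← filter_mem_eq_inter, ← sum_boole]
      rw [sum_congr rfl fun y _ => show f t y * f u y = if y ∈ B t ∧ y ∈ B u then (1 : ℝ) else 0 by
        simp only [hf]; split_ifs <;> simp_all, sum_boole, sum_boole]
      congr 2
      ext y
      simp only [mem_filter]
      exact ⟨fun h => ⟨h.2.1, h.2.2⟩, fun h => ⟨(hBsat t y h.1).1, h.1, h.2⟩⟩
    · simp [htu]
  rw [etot, esq, eq] at h
  have hP : 0 ≤ ∑ t, ((B t).card : ℝ) := sum_nonneg fun t _ => Nat.cast_nonneg _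
  refine h.trans (add_le_add ?_ ?_)
  · refine div_le_div_of_nonneg_right ?_ (Nat.cast_nonneg _)
    refine mul_le_of_le_one_left (sq_nonneg _) ?_
    have : (S.card : ℝ) ≤ Fintype.card ι := by exact_mod_cast card_le_univ S
    have : (0 : ℝ) ≤ (1 + 3 ^ j * ν) / ((Fintype.card ι : ℝ) - S.card) :=
      div_nonneg (by positivity) (by linarith)
    linarith
  · refine mul_le_mul_of_nonneg_right (mul_le_mul_of_nonneg_right ?_ hν) hP
    exact pow_le_pow_right₀ (by norm_num) (by omega)

end Vale.Agent.P067.Co
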