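import Vale.Agent.P067.Co.Setup

/-!
# Chains of fat sets inside one good simplex

The combinatorial heart of the fat-face argument, at a single chamber: `P` is the family of fat
type sets, and `T'` is good when two fat sets inside it meeting in a common facet have a fat meet.
-/

set_option linter.unusedSectionVars false

namespace Vale.Agent.P067.Co

open Finset

variable {ι : Type*} [DecidableEq ι] {P : Finset ι → Prop}

/-- A chain of sets in `P`, growing by one element at a time. -/
inductive Chain (P : Finset ι → Prop) (S : Finset ι) : Finset ι → Prop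
  | refl : P S → Chain P S S
  | step {A : Finset ι} {b : ι} : Chain P S A → b ∉ A → P (insert b A) → Chain P S (insert b A)

theorem Chain.top {S A : Finset ι} (h : Chain P S A) : P A := by
  cases h <;> assumption

theorem Chain.bot {S A : Finset ι} (h : Chain P S A) : P S := by
  induction h with
  | refl h => exact h
  | step _ _ _ ih => exact ih

theorem Chain.subset {S A : Finset ι} (h : Chain P S A) : S ⊆ A := by
  induction h with
  | refl _ => exact subset_rfl
  | step _ _ _ ih => exact ih.trans (subset_insert _ _)

theorem Chain.congr {Q : Finset ι → Prop} {S A : Finset ι} (h : Chain P S A)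
    (hPQ : ∀ U ⊆ A, P U → Q U) : Chain Q S A := by
  induction h with
  | refl hS => exact .refl (hPQ _ subset_rfl hS)
  | step _ hb hP ih =>
    exact .step (ih fun U hU => hPQ U (hU.trans (subset_insert _ _))) hb (hPQ _ subset_rfl hP)

/-- Every set of `P` is the top of a chain starting at a set none of whose facets is in `P`. -/
theorem exists_chain (T : Finset ι) (h : P T) :
    ∃ S, (∀ a ∈ S, ¬ P (S.erase a)) ∧ Chain P S T := by
  induction T using Finset.strongInduction with
  | H T ih =>
    by_cases hex : ∃ a ∈ T, P (T.erase a)
    · obtain ⟨a, ha, hPa⟩ := hex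
      obtain ⟨S, hS, hc⟩ := ih _ (erase_ssubset ha) hPa
      refine ⟨S, hS, ?_⟩
      have := hc.step (notMem_erase a T) (by rwa [insert_erase ha])
      rwa [insert_erase ha] at this
    · push Not at hex
      exact ⟨T, hex, .refl h⟩

/-- Two sets of `P` inside `T'` with a common facet have that facet in `P`. -/
def Good (P : Finset ι → Prop) (T' : Finset ι) : Prop :=
  ∀ S t u, t ≠ u → t ∉ S → u ∉ S → insert t S ⊆ T' → insert u S ⊆ T' → P (insert t S) →
    P (insert u S) → P S

/-- In a good simplex a chain can be pushed off a vertex, unless its bottom has a facet in `P`. -/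
theorem chain_erase {T' S A : Finset ι} (hg : Good P T') (h : Chain P S A) (hA : A ⊆ T') {a : ι}
    (ha : a ∈ A) (hPa : P (A.erase a)) :
    (a ∉ S ∧ Chain P S (A.erase a)) ∨ (a ∈ S ∧ P (S.erase a)) := by
  induction h generalizing a with
  | refl _ => exact .inr ⟨ha, hPa⟩
  | @step A b hc hb hP ih =>
    rcases eq_or_ne a b with rfl | hab
    · exact .inl ⟨fun hS => hb (hc.subset hS), by rwa [erase_insert hb]⟩
    · have haA : a ∈ A := (mem_insert.1 ha).resolve_left hab
      have e : (insert b A).erase a = insert b (A.erase a) := erase_insert_of_ne hab.symm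
      rw [e] at hPa ⊢
      have hb' : b ∉ A.erase a := fun h => hb (mem_of_mem_erase h)
      have hm : P (A.erase a) := by
        refine hg _ a b hab (notMem_erase a A) hb' ?_ ?_ (by rw [insert_erase haA]; exact hc.top)
          hPa
        · rw [insert_erase haA]; exact (subset_insert b A).trans hA
        · exact (insert_subset_insert b (erase_subset a A)).trans hA
      rcases ih ((subset_insert b A).trans hA) haA hm with ⟨h1, h2⟩ | h
      · exact .inl ⟨h1, h2.step hb' hPa⟩
      · exact .inr h

/-- If one set of `P` of size `|T'| - 1` inside a good `T'` has a chain from a minimal `S`, then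
every such set has one. -/
theorem chain_all {T' S : Finset ι} (hg : Good P T') (hS : ∀ a ∈ S, ¬ P (S.erase a)) {a b : ι}
    (ha : a ∈ T') (hb : b ∈ T') (hPa : P (T'.erase a)) (hc : Chain P S (T'.erase b)) :
    Chain P S (T'.erase a) := by
  rcases eq_or_ne a b with rfl | hab
  · exact hc
  · have haσ : a ∈ T'.erase b := mem_erase.2 ⟨hab, ha⟩
    have hbσ : b ∈ T'.erase a := mem_erase.2 ⟨hab.symm, hb⟩
    have e1 : insert a ((T'.erase b).erase a) = T'.erase b := insert_erase haσ
    have e2 : insert b ((T'.erase b).erase a) = T'.erase a := by
      rw [erase_right_comm]; exact insert_erase hbσ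
    have hb' : b ∉ (T'.erase b).erase a := by simp
    have hm : P ((T'.erase b).erase a) := by
      refine hg _ a b hab (notMem_erase _ _) hb' ?_ ?_ (by rw [e1]; exact hc.top)
        (by rw [e2]; exact hPa)
      · rw [e1]; exact erase_subset _ _
      · rw [e2]; exact erase_subset _ _
    rcases chain_erase hg hc (erase_subset _ _) haσ hm with ⟨_, h2⟩ | ⟨h1, h2⟩
    · have := h2.step hb' (by rw [e2]; exact hPa)
      rwa [e2] at this
    · exact absurd h2 (hS a h1)

end Vale.Agent.P067.Co
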