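import Vale.Agent.P067.Co.Interface

/-!
# The quadratic form of a link graph

For functions on the types and chambers of a residue: the sum over ordered pairs of different
types, the maximiser on the mean-zero functions, and its eigenvalue equation.
-/

set_option linter.unusedSectionVars false

namespace Vale.Agent.P067.Co

open Finset

variable {ι Ω : Type*} [Fintype ι] [DecidableEq ι] [Fintype Ω]

/-- The average over a class. -/
noncomputable def avgc (R : Finset ι → Ω → Ω → Prop) (T : Finset ι) (h : Ω → ℝ) (y : Ω) : ℝ :=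
  (∑ z ∈ cl R T y, h z) / (cl R T y).card

/-- The sum over the ordered pairs of different types. -/
noncomputable def qf (C : Finset Ω) (f : ι → Ω → ℝ) : ℝ :=
  ∑ y ∈ C, ((∑ t, f t y) ^ 2 - ∑ t, f t y ^ 2)

/-- The total. -/
noncomputable def tot (C : Finset Ω) (f : ι → Ω → ℝ) : ℝ := ∑ y ∈ C, ∑ t, f t y

/-- The sum of squares. -/
noncomputable def sq2 (C : Finset Ω) (f : ι → Ω → ℝ) : ℝ := ∑ y ∈ C, ∑ t, f t y ^ 2

/-- A family of functions on the link graph of the face of type `S`. -/
def Adm (R : Finset ι → Ω → Ω → Prop) (S : Finset ι) (f : ι → Ω → ℝ) : Prop :=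
  (∀ t ∈ S, ∀ y, f t y = 0) ∧ ∀ t y z, R (insert t S) y z → f t y = f t z

/-- The link graphs of the faces of type `S` have spectral error at most `ν`, in the form
keeping track of the mean. -/
def Gap (R : Finset ι → Ω → Ω → Prop) (S : Finset ι) (ν : ℝ) : Prop :=
  ∀ x f, Adm R S f → qf (cl R S x) f ≤
    (1 - (1 + ν) / ((Fintype.card ι : ℝ) - S.card)) * tot (cl R S x) f ^ 2 / (cl R S x).card +
      ν * sq2 (cl R S x) f

variable {R : Finset ι → Ω → Ω → Prop} {B : ℕ}

theorem cl_eq (hR : GoodRel R B) {T : Finset ι} {x y : Ω} (h : R T x y) : cl R T y = cl R T x := by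
  ext z; simp only [mem_cl]
  exact ⟨fun hz => (hR.equiv T).trans h hz, fun hz => (hR.equiv T).trans ((hR.equiv T).symm h) hz⟩

theorem self_mem_cl (hR : GoodRel R B) (T : Finset ι) (x : Ω) : x ∈ cl R T x :=
  mem_cl.2 ((hR.equiv T).refl x)

theorem card_cl_pos (hR : GoodRel R B) (T : Finset ι) (x : Ω) :
    (0 : ℝ) < ((cl R T x).card : ℝ) := by
  exact_mod_cast card_pos.2 ⟨x, self_mem_cl hR T x⟩

theorem avgc_inv (hR : GoodRel R B) (T : Finset ι) (h : Ω → ℝ) {y z : Ω} (hyz : R T y z) :
    avgc R T h y = avgc R T h z := by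
  unfold avgc; rw [cl_eq hR hyz]

/-- Averages over finer classes preserve sums against functions constant on them. -/
theorem sum_mul_avgc (hR : GoodRel R B) {S T : Finset ι} (hST : S ⊆ T) (x : Ω) (g h : Ω → ℝ)
    (hg : ∀ y z, R T y z → g y = g z) :
    ∑ y ∈ cl R S x, g y * avgc R T h y = ∑ y ∈ cl R S x, g y * h y := by
  unfold avgc
  simp_rw [sum_div, mul_sum]
  rw [sum_comm' (s' := fun z => cl R T z) (t' := cl R S x)]
  · refine sum_congr rfl fun z _ => ?_
    have h1 : ∀ y ∈ cl R T z, g y * (h z / ((cl R T y).card : ℝ)) =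
        g z * (h z / ((cl R T z).card : ℝ)) := fun y hy => by
      rw [cl_eq hR (mem_cl.1 hy), hg z y (mem_cl.1 hy)]
    rw [sum_congr rfl h1, sum_const, nsmul_eq_mul]
    have := (card_cl_pos hR T z).ne'
    field_simp
  · intro y z
    simp only [mem_cl]
    refine ⟨fun ⟨h1, h2⟩ => ⟨(hR.equiv T).symm h2, (hR.equiv S).trans h1 (hR.anti S T y z hST h2)⟩,
      fun ⟨h1, h2⟩ => ⟨(hR.equiv S).trans h2 (hR.anti S T z y hST h1), (hR.equiv T).symm h1⟩⟩

theorem sum_avgc (hR : GoodRel R B) {S T : Finset ι} (hST : S ⊆ T) (x : Ω) (h : Ω → ℝ) :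
    ∑ y ∈ cl R S x, avgc R T h y = ∑ y ∈ cl R S x, h y := by
  simpa using sum_mul_avgc hR hST x (fun _ => 1) h fun _ _ _ => rfl

theorem sq_sum_le {S : Finset ι} {f : ι → ℝ} (h : ∀ t ∈ S, f t = 0) :
    (∑ t, f t) ^ 2 ≤ ((Fintype.card ι : ℝ) - S.card) * ∑ t, f t ^ 2 := by
  have e1 : ∑ t, f t = ∑ t ∈ univ \ S, f t :=
    (sum_subset (subset_univ _) fun t _ ht => h t (by simpa using ht)).symm
  have e2 : ∑ t, f t ^ 2 = ∑ t ∈ univ \ S, f t ^ 2 :=
    (sum_subset (subset_univ _) fun t _ ht => by rw [h t (by simpa using ht)]; ring).symm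
  rw [e1, e2]
  refine sq_sum_le_card_mul_sum_sq.trans (le_of_eq ?_)
  rw [card_sdiff_of_subset (subset_univ S), card_univ, Nat.cast_sub (card_le_univ S)]

theorem qf_le (S : Finset ι) (C : Finset Ω) (f : ι → Ω → ℝ) (h : ∀ t ∈ S, ∀ y, f t y = 0) :
    qf C f ≤ ((Fintype.card ι : ℝ) - S.card - 1) * sq2 C f := by
  unfold qf sq2
  rw [mul_sum]
  refine sum_le_sum fun y _ => ?_
  have := sq_sum_le (f := fun t => f t y) fun t ht => h t ht y
  linarith

/-- The walk operator applied to `f`. -/
noncomputable def walk (R : Finset ι → Ω → Ω → Prop) (S : Finset ι) (f : ι → Ω → ℝ) :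
    ι → Ω → ℝ :=
  fun v y => if v ∈ S then 0 else avgc R (insert v S) (fun z => ∑ t, f t z - f v z) y

theorem walk_adm (hR : GoodRel R B) (S : Finset ι) (f : ι → Ω → ℝ) : Adm R S (walk R S f) := by
  refine ⟨fun t ht y => if_pos ht, fun t y z h => ?_⟩
  unfold walk
  split_ifs
  · rfl
  · exact avgc_inv hR _ _ h

/-- The bilinear form of `qf` in terms of the walk. -/
theorem sum_mul_walk (hR : GoodRel R B) {S : Finset ι} (x : Ω) (f g : ι → Ω → ℝ)
    (hg : Adm R S g) :
    ∑ y ∈ cl R S x, ((∑ t, f t y) * (∑ t, g t y) - ∑ t, f t y * g t y) =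
      ∑ v, ∑ y ∈ cl R S x, g v y * walk R S f v y := by
  rw [sum_congr rfl fun y _ => show (∑ t, f t y) * (∑ t, g t y) - ∑ t, f t y * g t y =
      ∑ v, g v y * (∑ t, f t y - f v y) by
    rw [mul_sum, ← sum_sub_distrib]
    exact sum_congr rfl fun t _ => by ring]
  rw [sum_comm]
  refine sum_congr rfl fun v _ => ?_
  by_cases hv : v ∈ S
  · exact sum_congr rfl fun y _ => by rw [hg.1 v hv y]; simp
  · refine ((sum_congr rfl fun y _ => ?_).trans
      (sum_mul_avgc hR (subset_insert v S) x (g v) _ (hg.2 v))).symm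
    simp [walk, hv]

theorem tot_walk (hR : GoodRel R B) {S : Finset ι} (x : Ω) (f : ι → Ω → ℝ)
    (hf : ∀ t ∈ S, ∀ y, f t y = 0) :
    tot (cl R S x) (walk R S f) =
      ((Fintype.card ι : ℝ) - S.card - 1) * tot (cl R S x) f := by
  unfold tot
  rw [sum_comm]
  have h : ∀ v, ∑ y ∈ cl R S x, walk R S f v y =
      ∑ y ∈ cl R S x, if v ∈ S then 0 else (∑ t, f t y - f v y) := by
    intro v
    by_cases hv : v ∈ S
    · simp [walk, hv]
    · simp only [walk, hv, if_false]
      exact sum_avgc hR (subset_insert v S) x _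
  rw [sum_congr rfl fun v _ => h v, sum_comm, mul_sum]
  refine sum_congr rfl fun y _ => ?_
  rw [sum_congr rfl fun v _ => show (if v ∈ S then 0 else (∑ t, f t y - f v y)) =
      (∑ t, f t y - f v y) - if v ∈ S then ∑ t, f t y else 0 by
    split_ifs with hv
    · rw [hf v hv y]; ring
    · ring]
  rw [sum_sub_distrib, sum_sub_distrib, sum_const, card_univ, nsmul_eq_mul, sum_ite_mem,
    univ_inter, sum_const, nsmul_eq_mul]
  ring

/-- A maximiser of the form among the mean-zero functions with unit square sum satisfies the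
eigenvalue equation. -/
theorem exists_eigen (hR : GoodRel R B) {S : Finset ι} (x : Ω) {f₁ : ι → Ω → ℝ}
    (h₁ : Adm R S f₁) (ht : tot (cl R S x) f₁ = 0) (hs : 0 < sq2 (cl R S x) f₁) :
    ∃ (f : ι → Ω → ℝ) (L : ℝ), Adm R S f ∧ tot (cl R S x) f = 0 ∧ sq2 (cl R S x) f = 1 ∧
      qf (cl R S x) f = L ∧ qf (cl R S x) f₁ ≤ L * sq2 (cl R S x) f₁ ∧
      ∀ v, ∀ y ∈ cl R S x, walk R S f v y = L * f v y := by
  classical
  set C := cl R S x with hC
  set W : Set (ι → Ω → ℝ) :=
    {f | Adm R S f ∧ (∀ t y, y ∉ C → f t y = 0) ∧ tot C f = 0 ∧ sq2 C f = 1} with hW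
  have hcut : ∀ g : ι → Ω → ℝ, Adm R S g →
      Adm R S (fun t y => if y ∈ C then g t y else 0) := by
    refine fun g hg => ⟨fun t ht y => by simp [hg.1 t ht y], fun t y z h => ?_⟩
    have h' := hR.anti S (insert t S) y z (subset_insert t S) h
    have : y ∈ C ↔ z ∈ C := by
      simp only [hC, mem_cl]
      exact ⟨fun hy => (hR.equiv S).trans hy h',
        fun hz => (hR.equiv S).trans hz ((hR.equiv S).symm h')⟩
    simp only [hg.2 t y z h, this]
  have htot_smul : ∀ (c : ℝ) (g : ι → Ω → ℝ), tot C (c • g) = c * tot C g := fun c g => by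
    simp only [tot, mul_sum]; rfl
  have hsq_smul : ∀ (c : ℝ) (g : ι → Ω → ℝ), sq2 C (c • g) = c ^ 2 * sq2 C g := fun c g => by
    simp only [sq2, Pi.smul_apply, smul_eq_mul, mul_pow, mul_sum]
  have hqf_smul : ∀ (c : ℝ) (g : ι → Ω → ℝ), qf C (c • g) = c ^ 2 * qf C g := fun c g => by
    simp only [qf, Pi.smul_apply, smul_eq_mul, mul_pow, ← mul_sum, ← mul_sub]
  have hnorm : ∀ g, Adm R S g → tot C g = 0 → 0 < sq2 C g →
      ∃ g' ∈ W, qf C g = qf C g' * sq2 C g := by
    intro g hg hgt hgs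
    refine ⟨(Real.sqrt (sq2 C g))⁻¹ • fun t y => if y ∈ C then g t y else 0,
      ⟨⟨fun t ht y => by simp [hg.1 t ht y], fun t y z h => ?_⟩, fun t y hy => by simp [hy],
        ?_, ?_⟩, ?_⟩
    · simp only [Pi.smul_apply, (hcut g hg).2 t y z h]
    · rw [htot_smul]
      refine mul_eq_zero_of_right _ ((sum_congr rfl fun y hy => ?_).trans hgt)
      simp [hy]
    · rw [hsq_smul, inv_pow, Real.sq_sqrt hgs.le]
      rw [show sq2 C (fun t y => if y ∈ C then g t y else 0) = sq2 C g from
        sum_congr rfl fun y hy => by simp [hy]]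
      exact inv_mul_cancel₀ hgs.ne'
    · rw [hqf_smul, inv_pow, Real.sq_sqrt hgs.le]
      rw [show qf C (fun t y => if y ∈ C then g t y else 0) = qf C g from
        sum_congr rfl fun y hy => by simp [hy]]
      field_simp
  have hcomp : IsCompact W := by
    refine IsCompact.of_isClosed_subset
      (isCompact_univ_pi fun _ : ι => isCompact_univ_pi fun _ : Ω =>
        isCompact_Icc (a := (-1 : ℝ)) (b := 1)) ?_ ?_
    · simp only [hW, Adm, Set.ofPred_and, Set.ofPred_forall, tot, sq2]
      refine ((isClosed_iInter fun t => isClosed_iInter fun _ => isClosed_iInter fun y => ?_).inter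
        (isClosed_iInter fun t => isClosed_iInter fun y => isClosed_iInter fun z =>
          isClosed_iInter fun _ => ?_)).inter ((isClosed_iInter fun t => isClosed_iInter fun y =>
            isClosed_iInter fun _ => ?_).inter (IsClosed.inter ?_ ?_)) <;>
        exact isClosed_eq (by fun_prop) (by fun_prop)
    · intro f hf t _ y _
      by_cases hy : y ∈ C
      · have h : f t y ^ 2 ≤ 1 := by
          rw [← hf.2.2.2]
          exact le_trans (single_le_sum (f := fun t => f t y ^ 2) (fun t _ => sq_nonneg _)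
            (mem_univ t))
            (single_le_sum (f := fun y => ∑ t, f t y ^ 2)
              (fun y _ => sum_nonneg fun t _ => sq_nonneg _) hy)
        constructor <;> nlinarith
      · simp [hf.2.1 t y hy]
  obtain ⟨g₁, hg₁, hq₁⟩ := hnorm f₁ h₁ ht hs
  obtain ⟨f, hf, hmax⟩ := hcomp.exists_isMaxOn ⟨g₁, hg₁⟩ (f := qf C)
    (Continuous.continuousOn (by unfold qf; fun_prop))
  obtain ⟨hfA, -, hft, hfs⟩ := hf
  set L := qf C f with hL
  have hle : ∀ g, Adm R S g → tot C g = 0 → qf C g ≤ L * sq2 C g := by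
    intro g hg hgt
    rcases (show 0 ≤ sq2 C g from
      sum_nonneg fun y _ => sum_nonneg fun t _ => sq_nonneg _).eq_or_lt with h0 | h0
    · have hz : ∀ y ∈ C, ∀ t, g t y = 0 := fun y hy t => by
        have := (sum_eq_zero_iff_of_nonneg fun y _ => sum_nonneg fun t _ => sq_nonneg _).1
          h0.symm y hy
        exact pow_eq_zero_iff two_ne_zero |>.1
          ((sum_eq_zero_iff_of_nonneg fun t _ => sq_nonneg _).1 this t (mem_univ t))
      rw [← h0, mul_zero]
      exact le_of_eq (sum_eq_zero fun y hy => by simp [hz y hy])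
    · obtain ⟨g', hg', hqg⟩ := hnorm g hg hgt h0
      rw [hqg]
      exact mul_le_mul_of_nonneg_right (hmax hg') h0.le
  refine ⟨f, L, hfA, hft, hfs, rfl, hle f₁ h₁ ht, ?_⟩
  set g : ι → Ω → ℝ := fun v y => walk R S f v y - L * f v y with hg
  have hgA : Adm R S g := by
    refine ⟨fun t ht y => by simp [hg, (walk_adm hR S f).1 t ht y, hfA.1 t ht y],
      fun t y z h => ?_⟩
    simp only [hg, (walk_adm hR S f).2 t y z h, hfA.2 t y z h]
  have hgt : tot C g = 0 := by
    have h1 := tot_walk hR x f hfA.1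
    rw [← hC, hft, mul_zero] at h1
    unfold tot at h1 hft ⊢
    simp only [hg, sum_sub_distrib, ← mul_sum, h1, hft, mul_zero, sub_zero]
  have hbil := sum_mul_walk hR x f g hgA
  rw [← hC] at hbil
  set G := sq2 C g with hG
  have hvar : ∀ c : ℝ, 2 * c * G ≤ c ^ 2 * (L * G - qf C g) := by
    intro c
    have hA : Adm R S (f + c • g) := ⟨fun t ht y => by simp [hfA.1 t ht y, hgA.1 t ht y],
      fun t y z h => by simp [hfA.2 t y z h, hgA.2 t y z h]⟩
    have ht' : tot C (f + c • g) = 0 := by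
      unfold tot at hft hgt ⊢
      simp only [Pi.add_apply, Pi.smul_apply, smul_eq_mul, sum_add_distrib, ← mul_sum, hft, hgt,
        mul_zero, add_zero]
    have h := hle _ hA ht'
    have e1 : qf C (f + c • g) = qf C f + 2 * c * (∑ y ∈ C,
        ((∑ t, f t y) * (∑ t, g t y) - ∑ t, f t y * g t y)) + c ^ 2 * qf C g := by
      simp only [qf, Pi.add_apply, Pi.smul_apply, smul_eq_mul, mul_sum, ← sum_add_distrib]
      refine sum_congr rfl fun y _ => ?_
      rw [sum_add_distrib, ← mul_sum]
      have : ∑ t, (f t y + c * g t y) ^ 2 =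
          ∑ t, f t y ^ 2 + 2 * c * ∑ t, f t y * g t y + c ^ 2 * ∑ t, g t y ^ 2 := by
        simp only [mul_sum, ← sum_add_distrib]
        exact sum_congr rfl fun t _ => by ring
      rw [this, ← mul_sum]
      ring
    have e2 : sq2 C (f + c • g) = sq2 C f + 2 * c * (∑ v, ∑ y ∈ C, g v y * f v y) +
        c ^ 2 * G := by
      simp only [hG, sq2, Pi.add_apply, Pi.smul_apply, smul_eq_mul]
      rw [sum_comm (s := univ), mul_sum, mul_sum, ← sum_add_distrib, ← sum_add_distrib]
      refine sum_congr rfl fun y _ => ?_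
      simp only [mul_sum, ← sum_add_distrib]
      exact sum_congr rfl fun t _ => by ring
    have e3 : (∑ v, ∑ y ∈ C, g v y * walk R S f v y) =
        G + L * ∑ v, ∑ y ∈ C, g v y * f v y := by
      simp only [hG, sq2]
      rw [sum_comm (s := C) (t := univ), mul_sum, ← sum_add_distrib]
      refine sum_congr rfl fun v _ => ?_
      rw [mul_sum, ← sum_add_distrib]
      exact sum_congr rfl fun y _ => by simp only [hg]; ring
    rw [e1, e2, hbil, e3, hfs, ← hL] at h
    linarith
  have hG0 : G = 0 := by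
    have hGnn : 0 ≤ G := sum_nonneg fun y _ => sum_nonneg fun t _ => sq_nonneg _
    set a := L * G - qf C g with ha
    have ha0 : 0 ≤ a := by linarith [hle g hgA hgt]
    by_contra hne
    have hGpos : 0 < G := lt_of_le_of_ne hGnn (Ne.symm hne)
    have h' := hvar (G / (a + 1))
    have e : (G / (a + 1)) ^ 2 * a ≤ G / (a + 1) * G := by
      rw [div_pow, div_mul_eq_mul_div, div_mul_eq_mul_div, div_le_div_iff₀ (by positivity)
        (by positivity)]
      nlinarith [mul_pos hGpos hGpos]
    have : 0 < G / (a + 1) * G := by positivity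
    linarith
  intro v y hy
  have := (sum_eq_zero_iff_of_nonneg fun y _ => sum_nonneg fun t _ => sq_nonneg _).1 hG0 y hy
  have := (sum_eq_zero_iff_of_nonneg fun t _ => sq_nonneg _).1 this v (mem_univ v)
  have := pow_eq_zero_iff two_ne_zero |>.1 this
  simp only [hg] at this
  linarith

end Vale.Agent.P067.Co
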