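import Mathlib

/-!
# Chamber systems and their cochains

A chamber system consists of a finite set of chambers and, for every set of types `T`, a partition
of the chambers into classes; a class of type `T` stands for a face of type `T`.  A cochain is a
function of a type set and a chamber, constant on classes, and the coboundary acts chamber by
chamber.
-/

set_option linter.unusedSectionVars false

namespace Vale.Agent.P067.Co

open Finset

variable {ι Ω : Type*} [Fintype ι] [DecidableEq ι] [Fintype Ω] [DecidableEq Ω]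

/-- A chamber system: the classes `cls T x` for a type set `T` and a chamber `x`. -/
structure Sys (ι Ω : Type*) [Fintype Ω] where
  /-- The chambers in the face of type `T` of the chamber `x`. -/
  cls : Finset ι → Ω → Finset Ω
  self : ∀ T x, x ∈ cls T x
  eq_of_mem : ∀ T x y, y ∈ cls T x → cls T y = cls T x
  mono : ∀ S T x, S ⊆ T → cls T x ⊆ cls S x
  empty : ∀ x, cls ∅ x = univ

namespace Sys

variable (X : Sys ι Ω)

/-- Cochains on the faces with `m` vertices. -/
def IsCochain (m : ℕ) (z : Finset ι → Ω → ZMod 2) : Prop :=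
  (∀ T x, T.card ≠ m → z T x = 0) ∧ ∀ T x y, y ∈ X.cls T x → z T y = z T x

theorem cls_comm {T : Finset ι} {x y : Ω} : y ∈ X.cls T x ↔ x ∈ X.cls T y := by
  constructor <;> intro h
  · rw [X.eq_of_mem _ _ _ h]; exact X.self _ _
  · rw [X.eq_of_mem _ _ _ h]; exact X.self _ _

theorem mem_of_subset {S T : Finset ι} {x y : Ω} (h : S ⊆ T) (hy : y ∈ X.cls T x) :
    y ∈ X.cls S x :=
  X.mono S T x h hy

theorem card_cls_pos (T : Finset ι) (x : Ω) : (0 : ℝ) < ((X.cls T x).card : ℝ) := by
  exact_mod_cast card_pos.2 ⟨x, X.self T x⟩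

/-- Averaging over classes preserves sums. -/
theorem sum_avg (T : Finset ι) (f : Ω → ℝ) :
    ∑ x, (∑ y ∈ X.cls T x, f y) / ((X.cls T x).card : ℝ) = ∑ y, f y := by
  simp_rw [sum_div]
  rw [sum_comm' (s' := fun y => X.cls T y) (t' := univ)]
  · refine sum_congr rfl fun y _ => ?_
    have h : ∀ x ∈ X.cls T y, f y / ((X.cls T x).card : ℝ) = f y / ((X.cls T y).card : ℝ) :=
      fun x hx => by rw [X.eq_of_mem _ _ _ hx]
    rw [sum_congr rfl h, sum_const, nsmul_eq_mul]
    have := (X.card_cls_pos T y).ne'
    field_simp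
  · intro x y
    simp [X.cls_comm (x := x) (y := y)]

end Sys

/-- The coboundary, chamber by chamber. -/
def dd (z : Finset ι → Ω → ZMod 2) : Finset ι → Ω → ZMod 2 :=
  fun T x => ∑ t ∈ T, z (T.erase t) x

/-- The support of a cochain. -/
def supp (z : Finset ι → Ω → ZMod 2) : Finset (Finset ι × Ω) :=
  univ.filter fun p => z p.1 p.2 ≠ 0

/-- The weight: the number of pairs of a type set and a chamber in the support. -/
def wt (z : Finset ι → Ω → ZMod 2) : ℝ := ((supp z).card : ℝ)

theorem wt_nonneg (z : Finset ι → Ω → ZMod 2) : 0 ≤ wt z := Nat.cast_nonneg _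

theorem wt_add_le (z v : Finset ι → Ω → ZMod 2) : wt (z + v) ≤ wt z + wt v := by
  have h : supp (z + v) ⊆ supp z ∪ supp v := by
    intro p hp
    simp only [supp, mem_filter, mem_univ, true_and, mem_union] at hp ⊢
    by_contra hc
    push Not at hc
    exact hp (by simp [hc.1, hc.2])
  unfold wt
  exact_mod_cast (card_le_card h).trans (card_union_le _ _)

theorem dd_add (z v : Finset ι → Ω → ZMod 2) : dd (z + v) = dd z + dd v := by
  funext T x; simp [dd, sum_add_distrib]

theorem dd_dd (z : Finset ι → Ω → ZMod 2) : dd (dd z) = 0 := by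
  funext T x
  simp only [dd, Pi.zero_apply]
  rw [sum_sigma']
  refine sum_involution (fun p _ => ⟨p.2, p.1⟩) ?_ ?_ ?_ ?_
  · rintro ⟨t, u⟩ _
    rw [erase_right_comm]
    exact CharTwo.add_self_eq_zero _
  · rintro ⟨t, u⟩ hp _ heq
    simp only [mem_sigma, mem_erase] at hp
    exact hp.2.1 (congrArg Sigma.fst heq)
  · rintro ⟨t, u⟩ hp
    simp only [mem_sigma, mem_erase] at hp ⊢
    exact ⟨hp.2.2, fun h => hp.2.1 h.symm, hp.1⟩
  · rintro ⟨t, u⟩ _
    rfl

namespace Sys

variable (X : Sys ι Ω)

theorem isCochain_zero (m : ℕ) : X.IsCochain m 0 := ⟨fun _ _ _ => rfl, fun _ _ _ _ => rfl⟩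

theorem isCochain_add {m : ℕ} {z v : Finset ι → Ω → ZMod 2} (hz : X.IsCochain m z)
    (hv : X.IsCochain m v) : X.IsCochain m (z + v) :=
  ⟨fun T x h => by simp [hz.1 T x h, hv.1 T x h],
    fun T x y h => by simp [hz.2 T x y h, hv.2 T x y h]⟩

theorem isCochain_dd {m : ℕ} {z : Finset ι → Ω → ZMod 2} (hz : X.IsCochain m z) :
    X.IsCochain (m + 1) (dd z) := by
  refine ⟨fun T x h => sum_eq_zero fun t ht => hz.1 _ _ fun hc => h ?_,
    fun T x y h => sum_congr rfl fun t _ => hz.2 _ x y (X.mem_of_subset (erase_subset t T) h)⟩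
  rw [← hc, card_erase_add_one ht]

/-- A cochain has at most as much weight as there are pairs of a type set and a chamber. -/
theorem wt_le (z : Finset ι → Ω → ZMod 2) :
    wt z ≤ 2 ^ Fintype.card ι * Fintype.card Ω := by
  have h := card_le_univ (supp z)
  simp only [Fintype.card_prod, Fintype.card_finset] at h
  unfold wt
  exact_mod_cast h

end Sys

end Vale.Agent.P067.Co
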