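import Vale.Agent.P067.Co.Quad

/-!
# Trickling down

A spectral gap in the residues of rank two and connectedness give a spectral gap in the link
graph of every face.
-/

set_option linter.unusedSectionVars false

namespace Vale.Agent.P067.Co

open Finset

variable {ι Ω : Type*} [Fintype ι] [DecidableEq ι] [Fintype Ω]
variable {R : Finset ι → Ω → Ω → Prop} {B : ℕ}

/-- The inequality on mean-zero families gives it on all families. -/
theorem gap_of_meanzero (hR : GoodRel R B) {S : Finset ι} {ν : ℝ} (hS : S.card < Fintype.card ι)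
    (h : ∀ x f, Adm R S f → tot (cl R S x) f = 0 →
      qf (cl R S x) f ≤ ν * sq2 (cl R S x) f) : Gap R S ν := by
  intro x f hf
  set C := cl R S x
  set r : ℝ := (Fintype.card ι : ℝ) - S.card with hr
  have hr0 : 0 < r := by rw [hr, sub_pos]; exact_mod_cast hS
  have hC : (0 : ℝ) < (C.card : ℝ) := card_cl_pos hR S x
  set a := tot C f / (r * C.card) with ha
  set f₀ : ι → Ω → ℝ := fun t y => if t ∈ S then 0 else f t y - a with hf₀
  have hA : Adm R S f₀ := ⟨fun t ht y => if_pos ht, fun t y z hyz => by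
    simp only [hf₀, hf.2 t y z hyz]⟩
  have hs : ∀ y, ∑ t, f₀ t y = ∑ t, f t y - r * a := by
    intro y
    rw [sum_congr rfl fun t _ => show f₀ t y = (f t y - a) + if t ∈ S then a else 0 by
      simp only [hf₀]; split_ifs with h
      · rw [hf.1 t h y]; ring
      · ring]
    rw [sum_add_distrib, sum_sub_distrib, sum_ite_mem, univ_inter, sum_const, sum_const, card_univ,
      nsmul_eq_mul, nsmul_eq_mul, hr]
    ring
  have hq : ∀ y, ∑ t, f₀ t y ^ 2 = ∑ t, f t y ^ 2 - 2 * a * ∑ t, f t y + r * a ^ 2 := by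
    intro y
    rw [sum_congr rfl fun t _ => show f₀ t y ^ 2 = (f t y ^ 2 - 2 * a * f t y + a ^ 2) -
        if t ∈ S then a ^ 2 else 0 by
      simp only [hf₀]; split_ifs with h
      · rw [hf.1 t h y]; ring
      · ring]
    rw [sum_sub_distrib, sum_add_distrib, sum_sub_distrib, sum_ite_mem, univ_inter, sum_const,
      sum_const, card_univ, nsmul_eq_mul, nsmul_eq_mul, ← mul_sum, hr]
    ring
  have e0 : tot C f₀ = 0 := by
    unfold tot
    simp only [hs, sum_sub_distrib, sum_const, nsmul_eq_mul]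
    rw [ha]
    unfold tot
    field_simp
    ring
  have e1 : qf C f = qf C f₀ + (2 * r * a - 2 * a) * tot C f + (C.card : ℝ) *
      (r * a ^ 2 - r ^ 2 * a ^ 2) := by
    unfold qf tot
    rw [mul_sum, ← nsmul_eq_mul, ← sum_const, ← sum_add_distrib, ← sum_add_distrib]
    exact sum_congr rfl fun y _ => by rw [hs, hq]; ring
  have e2 : sq2 C f₀ = sq2 C f - 2 * a * tot C f + (C.card : ℝ) * (r * a ^ 2) := by
    unfold sq2 tot
    rw [sum_congr rfl fun y _ => hq y, sum_add_distrib, sum_sub_distrib, ← mul_sum, sum_const,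
      nsmul_eq_mul]
  have h0 := h x f₀ hA e0
  rw [e2] at h0
  have et : tot C f = a * (r * C.card) := by rw [ha]; field_simp
  rw [e1, et]
  have e3 : (1 - (1 + ν) / r) * (a * (r * C.card)) ^ 2 / C.card =
      (r - 1 - ν) * (a ^ 2 * (r * C.card)) := by
    rw [one_sub_div hr0.ne', div_mul_eq_mul_div, div_div, div_eq_iff (mul_ne_zero hr0.ne' hC.ne')]
    ring
  rw [e3]
  rw [et] at h0
  nlinarith

/-- The residues of rank two. -/
theorem gap_base (hR : GoodRel R B) {ν : ℝ} (hν : 0 ≤ ν) (h2 : TwoGap R ν) {S : Finset ι}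
    (hS : S.card + 2 = Fintype.card ι) : Gap R S ν := by
  refine gap_of_meanzero hR (by omega) fun x f hf h0 => ?_
  obtain ⟨t, u, htu, he⟩ := card_eq_two.1 (show (univ \ S).card = 2 by
    rw [card_sdiff_of_subset (subset_univ S), card_univ]; omega)
  have ht : t ∉ S := (mem_sdiff.1 (he.symm ▸ mem_insert_self t {u})).2
  have hu : u ∉ S := (mem_sdiff.1 (he.symm ▸ mem_insert_of_mem (mem_singleton_self u))).2
  set C := cl R S x
  have hsum : ∀ g : ι → ℝ, (∀ v ∈ S, g v = 0) → ∑ v, g v = g t + g u := by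
    intro g hg
    rw [← sum_subset (subset_univ (univ \ S)) fun v _ hv => hg v (by simpa using hv), he,
      sum_pair htu]
  have hs : ∀ y, ∑ v, f v y = f t y + f u y := fun y => hsum _ fun v hv => hf.1 v hv y
  have hq : ∀ y, ∑ v, f v y ^ 2 = f t y ^ 2 + f u y ^ 2 := fun y =>
    hsum _ fun v hv => by simp [hf.1 v hv y]
  have hqf : qf C f = 2 * ∑ y ∈ C, f t y * f u y := by
    rw [qf, mul_sum]; exact sum_congr rfl fun y _ => by rw [hs, hq]; ring
  have hsq : sq2 C f = ∑ y ∈ C, f t y ^ 2 + ∑ y ∈ C, f u y ^ 2 := by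
    rw [sq2, ← sum_add_distrib]; exact sum_congr rfl fun y _ => hq y
  unfold tot at h0
  simp only [hs, sum_add_distrib] at h0
  have h := h2 S hS t u ht hu htu x (f t) (f u) (hf.2 t) (hf.2 u)
  have hC := card_cl_pos hR S x
  have h1 : (∑ y ∈ C, f t y) * (∑ y ∈ C, f u y) / (C.card : ℝ) ≤ 0 := by
    refine div_nonpos_of_nonpos_of_nonneg ?_ hC.le
    rw [show ∑ y ∈ C, f u y = -∑ y ∈ C, f t y by linarith]
    nlinarith [sq_nonneg (∑ y ∈ C, f t y)]
  have ha : 0 ≤ ∑ y ∈ C, f t y ^ 2 := sum_nonneg fun y _ => sq_nonneg _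
  have hb : 0 ≤ ∑ y ∈ C, f u y ^ 2 := sum_nonneg fun y _ => sq_nonneg _
  have hgm : Real.sqrt ((∑ y ∈ C, f t y ^ 2) * ∑ y ∈ C, f u y ^ 2) ≤
      ((∑ y ∈ C, f t y ^ 2) + ∑ y ∈ C, f u y ^ 2) / 2 := by
    rw [Real.sqrt_le_iff]
    refine ⟨by positivity, ?_⟩
    nlinarith [sq_nonneg ((∑ y ∈ C, f t y ^ 2) - ∑ y ∈ C, f u y ^ 2)]
  have := mul_le_mul_of_nonneg_left hgm hν
  rw [hqf, hsq]
  linarith

/-- One step of trickling down. -/
theorem gap_step (hR : GoodRel R B) (hconn : Conn R) {S : Finset ι} {ν : ℝ} (hν : 0 ≤ ν)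
    (hν3 : 3 * ν ≤ 1) (hS : S.card + 3 ≤ Fintype.card ι)
    (hgap : ∀ v, v ∉ S → Gap R (insert v S) ν) : Gap R S (3 * ν) := by
  classical
  refine gap_of_meanzero hR (by omega) fun x f₁ hf₁ ht₁ => ?_
  set r : ℝ := (Fintype.card ι : ℝ) - S.card with hr
  have hr3 : 3 ≤ r := by
    have : (S.card : ℝ) + 3 ≤ Fintype.card ι := by exact_mod_cast hS
    linarith
  set C := cl R S x
  rcases (show 0 ≤ sq2 C f₁ from
    sum_nonneg fun y _ => sum_nonneg fun t _ => sq_nonneg _).eq_or_lt with h0 | h0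
  · rw [← h0, mul_zero]
    have := qf_le S C f₁ hf₁.1
    rwa [← h0, mul_zero] at this
  obtain ⟨f, L, hf, hft, hfs, hfq, hle, heig⟩ := exists_eigen hR x hf₁ ht₁ h0
  refine hle.trans (mul_le_mul_of_nonneg_right ?_ h0.le)
  set κ : ℝ := 1 - (1 + ν) / (r - 1) with hκ
  have hκ3 : 1 / 3 ≤ κ := by
    have : (1 + ν) / (r - 1) ≤ 2 / 3 := by rw [div_le_iff₀ (by linarith)]; linarith
    linarith
  -- the link of `S` seen from one vertex above it
  have hloc : ∀ v, v ∉ S → ∑ y ∈ C, ((∑ t, f t y - f v y) ^ 2 - (∑ t, f t y ^ 2 - f v y ^ 2)) ≤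
      κ * L ^ 2 * ∑ y ∈ C, f v y ^ 2 + ν * ∑ y ∈ C, (∑ t, f t y ^ 2 - f v y ^ 2) := by
    intro v hv
    set f' : ι → Ω → ℝ := fun t y => if t = v then 0 else f t y with hf'
    have hA : Adm R (insert v S) f' := by
      refine ⟨fun t ht y => ?_, fun t y z h => ?_⟩
      · rcases mem_insert.1 ht with rfl | ht
        · simp [hf']
        · simp [hf', hf.1 t ht y]
      · simp only [hf']
        split_ifs
        · rfl
        · exact hf.2 t y z (hR.anti _ _ y z (insert_subset_insert t (subset_insert v S)) h)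
    have hsum : ∀ (g : ι → ℝ), ∑ t, (if t = v then 0 else g t) = ∑ t, g t - g v := by
      intro g
      rw [sum_congr rfl fun t _ => show (if t = v then (0 : ℝ) else g t) =
        g t - if t = v then g t else 0 by split_ifs <;> ring]
      rw [sum_sub_distrib, sum_ite_eq', if_pos (mem_univ v)]
    have h1 : ∀ y, ∑ t, f' t y = ∑ t, f t y - f v y := fun y => hsum fun t => f t y
    have h2 : ∀ y, ∑ t, f' t y ^ 2 = ∑ t, f t y ^ 2 - f v y ^ 2 := fun y => by
      rw [← hsum fun t => f t y ^ 2]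
      exact sum_congr rfl fun t _ => by simp only [hf']; split_ifs <;> ring
    have hsub := subset_insert v S
    have hcard : ((insert v S).card : ℝ) = S.card + 1 := by
      rw [card_insert_of_notMem hv]; push_cast; ring
    have hpt : ∀ y ∈ C,
        avgc R (insert v S) (fun z => (∑ t, f' t z) ^ 2 - ∑ t, f' t z ^ 2) y ≤
          κ * avgc R (insert v S) (fun z => ∑ t, f' t z) y ^ 2 +
            ν * avgc R (insert v S) (fun z => ∑ t, f' t z ^ 2) y := by
      intro y _
      have hpos := card_cl_pos hR (insert v S) y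
      have h := hgap v hv y f' hA
      rw [hcard, show (Fintype.card ι : ℝ) - (S.card + 1) = r - 1 by rw [hr]; ring, ← hκ] at h
      unfold avgc
      simp only [qf, tot, sq2] at h
      rw [div_le_iff₀ hpos]
      refine h.trans (le_of_eq ?_)
      field_simp
    have := sum_le_sum hpt
    rw [sum_add_distrib, ← mul_sum, ← mul_sum, sum_avgc hR hsub, sum_avgc hR hsub] at this
    simp only [h1, h2] at this
    refine this.trans (le_of_eq ?_)
    congr 1
    rw [mul_assoc, mul_sum (a := L ^ 2)]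
    congr 1
    refine sum_congr rfl fun y hy => ?_
    have := heig v y hy
    simp only [walk, hv, if_false] at this
    rw [this]; ring
  have hkey := sum_le_sum (fun v (hv : v ∈ univ \ S) => hloc v (mem_sdiff.1 hv).2)
  have hsc : ((univ \ S).card : ℝ) = r := by
    rw [card_sdiff_of_subset (subset_univ S), card_univ, Nat.cast_sub (card_le_univ S)]
  have hrs : ∀ g : ι → ℝ, (∀ v ∈ S, g v = 0) → ∑ v ∈ univ \ S, g v = ∑ v, g v := fun g hg =>
    sum_subset (subset_univ _) fun v _ hv => hg v (by simpa using hv)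
  rw [sum_comm, sum_add_distrib, ← mul_sum, ← mul_sum, sum_comm (s := univ \ S) (t := C),
    sum_comm (s := univ \ S) (t := C) (f := fun v y => ∑ t, f t y ^ 2 - f v y ^ 2)] at hkey
  have e1 : ∀ y, ∑ v ∈ univ \ S, ((∑ t, f t y - f v y) ^ 2 - (∑ t, f t y ^ 2 - f v y ^ 2)) =
      (r - 2) * ((∑ t, f t y) ^ 2 - ∑ t, f t y ^ 2) := by
    intro y
    rw [sum_congr rfl fun v _ => show (∑ t, f t y - f v y) ^ 2 - (∑ t, f t y ^ 2 - f v y ^ 2) =
      ((∑ t, f t y) ^ 2 - ∑ t, f t y ^ 2) - (2 * ∑ t, f t y) * f v y + 2 * f v y ^ 2 by ring]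
    rw [sum_add_distrib, sum_sub_distrib, sum_const, nsmul_eq_mul, hsc, ← mul_sum, ← mul_sum,
      hrs _ fun v hv => hf.1 v hv y, hrs _ fun v hv => by simp [hf.1 v hv y]]
    ring
  have e2 : ∀ y, ∑ v ∈ univ \ S, (∑ t, f t y ^ 2 - f v y ^ 2) = (r - 1) * ∑ t, f t y ^ 2 := by
    intro y
    rw [sum_sub_distrib, sum_const, nsmul_eq_mul, hsc, hrs _ fun v hv => by simp [hf.1 v hv y]]
    ring
  have e3 : ∀ y, ∑ v ∈ univ \ S, f v y ^ 2 = ∑ v, f v y ^ 2 := fun y =>
    hrs _ fun v hv => by simp [hf.1 v hv y]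
  simp only [e1, e2, e3, ← mul_sum] at hkey
  unfold qf at hfq
  unfold sq2 at hfs
  rw [hfq, hfs, mul_one, mul_one] at hkey
  -- the eigenvalue is not the trivial one
  have hLr : L ≤ r - 1 := by
    have := qf_le S C f hf.1
    unfold qf sq2 at this
    rwa [hfq, hfs, mul_one] at this
  have hne : L ≠ r - 1 := by
    intro hEq
    set φ : Ω → ℝ := fun y => if y ∈ C then (∑ t, f t y) / r else 0 with hφ
    have hflat : ∀ y ∈ C, ∀ t, t ∉ S → f t y = φ y := by
      have hnn : ∀ y ∈ C, 0 ≤ r * ∑ t, f t y ^ 2 - (∑ t, f t y) ^ 2 := fun y _ => by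
        have := sq_sum_le (f := fun t => f t y) fun t ht => hf.1 t ht y
        linarith
      have hz : ∑ y ∈ C, (r * ∑ t, f t y ^ 2 - (∑ t, f t y) ^ 2) = 0 := by
        rw [sum_sub_distrib, ← mul_sum, hfs]
        rw [sum_sub_distrib, hfs] at hfq
        linarith
      intro y hy t ht
      have h := (sum_eq_zero_iff_of_nonneg hnn).1 hz y hy
      have hv : ∑ v ∈ univ \ S, (f v y - φ y) ^ 2 = 0 := by
        rw [sum_congr rfl fun v _ => show (f v y - φ y) ^ 2 =
          f v y ^ 2 - (2 * φ y) * f v y + φ y ^ 2 by ring]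
        rw [sum_add_distrib, sum_sub_distrib, sum_const, nsmul_eq_mul, hsc, ← mul_sum, e3,
          hrs _ fun v hv => hf.1 v hv y]
        simp only [hφ, if_pos hy]
        field_simp
        linarith
      have := (sum_eq_zero_iff_of_nonneg fun v _ => sq_nonneg _).1 hv t
        (mem_sdiff.2 ⟨mem_univ t, ht⟩)
      have := pow_eq_zero_iff two_ne_zero |>.1 this
      linarith
    have hiff : ∀ y z, R S y z → (y ∈ C ↔ z ∈ C) := fun y z h => by
      simp only [C, mem_cl]
      exact ⟨fun hy => (hR.equiv S).trans hy h,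
        fun hz => (hR.equiv S).trans hz ((hR.equiv S).symm h)⟩
    have hconst : ∀ y ∈ C, φ y = φ x := by
      intro y hy
      refine (hconn S hS φ (fun t ht a b hab => ?_) x y (mem_cl.1 hy)).symm
      by_cases ha : a ∈ C
      · have hb := (hiff a b (hR.anti _ _ a b (subset_insert t S) hab)).1 ha
        rw [← hflat a ha t ht, ← hflat b hb t ht]
        exact hf.2 t a b hab
      · have hb : b ∉ C := fun hb => ha
          ((hiff a b (hR.anti _ _ a b (subset_insert t S) hab)).2 hb)
        simp [hφ, ha, hb]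
    have hs0 : ∀ y ∈ C, ∑ t, f t y = r * φ x := fun y hy => by
      rw [← hconst y hy, hφ]
      simp only [if_pos hy]
      field_simp
    unfold tot at hft
    rw [sum_congr rfl hs0, sum_const, nsmul_eq_mul] at hft
    have hx : φ x = 0 := by
      have := card_cl_pos hR S x
      rcases mul_eq_zero.1 hft with h | h
      · linarith
      · rcases mul_eq_zero.1 h with h | h
        · linarith
        · exact h
    have : ∑ y ∈ C, ∑ t, f t y ^ 2 = 0 := sum_eq_zero fun y hy => sum_eq_zero fun t _ => by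
      by_cases ht : t ∈ S
      · simp [hf.1 t ht y]
      · simp [hflat y hy t ht, hconst y hy, hx]
    linarith
  have hquad : 0 ≤ (L - (r - 1)) * (κ * L - ν) := by
    have : κ * (r - 1) = r - 2 - ν := by
      rw [hκ, sub_mul, div_mul_cancel₀ _ (by linarith : r - 1 ≠ 0)]; ring
    nlinarith
  have hκL : κ * L ≤ ν := by
    by_contra hc
    have := mul_neg_of_neg_of_pos (sub_neg.2 (lt_of_le_of_ne hLr hne)) (sub_pos.2 (not_le.1 hc))
    linarith
  rcases le_or_gt L 0 with h | h
  · linarith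
  · nlinarith

/-- Trickling down to every level. -/
theorem gap_all (hR : GoodRel R B) (hconn : Conn R) {ν : ℝ} (hν : 0 ≤ ν)
    (hν3 : 3 ^ Fintype.card ι * ν ≤ 1) (h2 : TwoGap R ν) :
    ∀ j, ∀ S : Finset ι, S.card + 2 + j = Fintype.card ι → Gap R S (3 ^ j * ν) := by
  intro j
  induction j with
  | zero => intro S hS; simpa using gap_base hR hν h2 (by omega)
  | succ j ih =>
    intro S hS
    rw [pow_succ, mul_comm (3 ^ j) 3, mul_assoc]
    refine gap_step hR hconn (by positivity) ?_ (by omega) fun v hv => ih _ ?_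
    · rw [← mul_assoc, ← pow_succ']
      exact le_trans (mul_le_mul_of_nonneg_right (pow_le_pow_right₀ (by norm_num) (by omega)) hν)
        hν3
    · rw [card_insert_of_notMem hv]; omega

end Vale.Agent.P067.Co
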